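import Mathlib

/-!
P092, [MIX] (helper736): the image of a discrete subgroup modulo a finite normal subgroup is discrete.
-/

set_option linter.all false

open Topology Filter Set

namespace Vale.Agent.P092.H736.Mx

theorem disc_of_near {Γ E : Type} [Group Γ] [Group E] [TopologicalSpace E] [IsTopologicalGroup E]
    (p : Γ →* E) (h : ∃ V ∈ 𝓝 (1 : E), ∀ g, p g ∈ V → p g = 1) :
    DiscreteTopology (Set.range p) := by
  obtain ⟨V, hV, hV'⟩ := h
  have key : DiscreteTopology p.range := by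
    apply discreteTopology_of_isOpen_singleton_one
    have h2 : ({1} : Set p.range) ∈ 𝓝 (1 : p.range) := by
      rw [nhds_subtype_eq_comap]
      refine ⟨V, hV, ?_⟩
      rintro ⟨_, g, rfl⟩ hg
      exact Subtype.ext (hV' g hg)
    exact isOpen_singleton_iff_nhds_eq_pure _ |>.2 (le_antisymm (le_pure_iff.2 h2) (pure_le_nhds _))
  exact key

/-- modulo a finite normal subgroup -/
theorem disc_quo {Γ E : Type} [Group Γ] [Group E] [TopologicalSpace E] [IsTopologicalGroup E]
    [T2Space E] (R : Subgroup E) [R.Normal] [Finite R] (p : Γ →* E)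
    (h : DiscreteTopology (Set.range p)) :
    DiscreteTopology (Set.range ((QuotientGroup.mk' R).comp p)) := by
  haveI hd : DiscreteTopology p.range := h
  have hc : IsClosed (p.range : Set E) := Subgroup.isClosed_of_discrete
  have h1 : ∀ r : R, ∃ U ∈ 𝓝 (r : E), ∀ g, p g ∈ U → p g = r := by
    intro r
    by_cases hr : (r : E) ∈ p.range
    · have h2 : ({⟨r, hr⟩} : Set p.range) ∈ 𝓝 (⟨r, hr⟩ : p.range) := by
        rw [nhds_discrete]
        exact Set.mem_singleton _
      rw [nhds_subtype_eq_comap] at h2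
      obtain ⟨U, hU, hU'⟩ := h2
      refine ⟨U, hU, fun g hg => ?_⟩
      have h3 : (⟨p g, g, rfl⟩ : p.range) ∈ ({⟨r, hr⟩} : Set p.range) := hU' hg
      exact congrArg Subtype.val h3
    · exact ⟨_, hc.isOpen_compl.mem_nhds hr, fun g hg => (hg ⟨g, rfl⟩).elim⟩
  choose U hU hU' using h1
  refine disc_of_near _ ⟨(QuotientGroup.mk' R) '' (⋂ r : R, {x : E | x * r ∈ U r}), ?_, ?_⟩
  · have h2 : (⋂ r : R, {x : E | x * r ∈ U r}) ∈ 𝓝 (1 : E) := by
      refine Filter.iInter_mem.2 fun r => ?_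
      have h3 : ContinuousAt (fun x : E => x * r) 1 := (continuous_mul_const (r : E)).continuousAt
      refine h3.preimage_mem_nhds ?_
      rw [one_mul]
      exact hU r
    have h4 := (QuotientGroup.isOpenMap_coe (N := R)).image_mem_nhds h2
    exact h4
  · rintro g ⟨x, hx, hxg⟩
    have h5 : x⁻¹ * p g ∈ R := QuotientGroup.eq.1 hxg
    have h6 : x * (x⁻¹ * p g) ∈ U ⟨x⁻¹ * p g, h5⟩ := Set.mem_iInter.1 hx ⟨x⁻¹ * p g, h5⟩
    rw [mul_inv_cancel_left] at h6
    have h7 : p g = x⁻¹ * p g := hU' ⟨x⁻¹ * p g, h5⟩ g h6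
    show ((p g : E) : E ⧸ R) = 1
    rw [QuotientGroup.eq_one_iff, h7]
    exact h5

end Vale.Agent.P092.H736.Mx
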