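import Vale.Agent.P092.H259.Mx.LatM
import Vale.Agent.P092.H213.Irr.MinW
import Vale.Agent.P092.H144.Nc.All

/-!
P092, project MIX (helper736): lattices in finite products of simple groups over local fields, every
irreducible component of which has at least two factors or is of type `A_n`; from the literal
`MixStmt` and the theorem for the class `UN.LatticeP`. Letter-free form.
-/

set_option linter.all false

namespace Vale.Agent.P092.H736.Mx

open Vale.Agent.P092.H259.Mx (Bpl MixStmt bpl_typeP bpl_typeL superAll_bd)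

/-- **The class `ClsV`.** -/
theorem bpl_clsV (G : Type) [Group G] [TopologicalSpace G] (h : UN.ClsV G) : Bpl G :=
  ⟨H259.Fk.ovG_clsV h, H213.Irr.minC_clsV h, H144.Nc.nd_clsV h⟩

/-- **All classes**, letter-free: property (T) is used only if a projection is discrete. -/
theorem superAll_bplX (mix : MixStmt)
    (hP : ∀ (Γ : Type) [Group Γ], UN.LatticeP Γ → UN.SuperAll Γ) {Γ I : Type} [Fintype I]
    [Group Γ] (hicc : UN.ICC Γ) {G : I → Type} [∀ j, Group (G j)] [∀ j, TopologicalSpace (G j)]
    {E : Type} [Group E] [TopologicalSpace E] [IsTopologicalGroup E] (f : E →* ∀ j, G j)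
    (hf : IsProperMap f) (hr : f.range.FiniteIndex) (i : Γ →* E) (hi : Function.Injective i)
    (hl : UN.IsLattice i.range)
    (hT : UN.PropT Γ ∨ H962.MX.KazT E ∨
      ∀ j, ¬ DiscreteTopology (Set.range fun g => f (i g) j))
    (hB : ∀ j, Bpl (G j))
    (hd : ∀ j, UN.TypeP (G j) ∨ ¬ DiscreteTopology (Set.range fun g => f (i g) j)) :
    UN.SuperAll Γ := by
  by_cases hD : ∀ j, ¬ DiscreteTopology (Set.range fun g => f (i g) j)
  · exact H259.Fk.superAll_prop hicc f hf hr i hi hl (fun j => (hB j).ov)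
      fun j => Or.inr ⟨(hB j).nd, hD j⟩
  haveI : ∀ j, IsTopologicalGroup (G j) := fun j => by
    obtain ⟨M, _, _, φ, r, h⟩ := (hB j).ov
    exact h.top
  haveI : ∀ j, T2Space (G j) := fun j => by
    obtain ⟨M, _, _, φ, r, h⟩ := (hB j).ov
    exact H333.V.Ov.t2 h
  haveI : ∀ j, LocallyCompactSpace (G j) := fun j => by
    obtain ⟨M, _, _, φ, r, h⟩ := (hB j).ov
    exact H333.V.Ov.lc h
  haveI : ∀ j, SecondCountableTopology (G j) := fun j => by
    obtain ⟨M, _, _, φ, r, h⟩ := (hB j).ov
    exact H333.V.Ov.sc h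
  have hT' : UN.PropT Γ := by
    rcases hT with h | h | h
    · exact h
    · exact H759.TL.propT_of_ext hicc f hf i hi hl h
    · exact (hD h).elim
  refine superAll_bd mix hP hicc hT' f hf hr i hi hl fun j => ?_
  by_cases h1 : DiscreteTopology (Set.range fun g => f (i g) j)
  · rcases hd j with h | h
    · exact Or.inr ⟨h, h1⟩
    · exact (h h1).elim
  · exact Or.inl ⟨(hB j).ov, (hB j).mc, Or.inr ⟨(hB j).nd, h1⟩⟩

/-- **The product class**: every `G j` is `TypeP`, or it is `ClsV` or `TypeL` and the image of `Γ` in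
it is not discrete. -/
theorem superAll_prodX (mix : MixStmt)
    (hP : ∀ (Γ : Type) [Group Γ], UN.LatticeP Γ → UN.SuperAll Γ) {Γ I : Type} [Fintype I]
    [Group Γ] (hicc : UN.ICC Γ) {G : I → Type} [∀ j, Group (G j)] [∀ j, TopologicalSpace (G j)]
    {E : Type} [Group E] [TopologicalSpace E] [IsTopologicalGroup E] (f : E →* ∀ j, G j)
    (hf : IsProperMap f) (hr : f.range.FiniteIndex) (i : Γ →* E) (hi : Function.Injective i)
    (hl : UN.IsLattice i.range)
    (hT : UN.PropT Γ ∨ H962.MX.KazT E ∨
      ∀ j, ¬ DiscreteTopology (Set.range fun g => f (i g) j))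
    (hd : ∀ j, UN.TypeP (G j) ∨ (UN.ClsV (G j) ∨ UN.TypeL (G j)) ∧
      ¬ DiscreteTopology (Set.range fun g => f (i g) j)) : UN.SuperAll Γ :=
  superAll_bplX mix hP hicc f hf hr i hi hl hT (fun j => by
    rcases hd j with h | h
    · exact bpl_typeP _ h
    · exact h.1.elim (bpl_clsV _) (bpl_typeL _)) fun j => (hd j).imp_right fun h => h.2

end Vale.Agent.P092.H736.Mx
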